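import Vale.Agent.P082.Every.C1.Fam
import Vale.Agent.P132.Homog.Polar

/-!
# P082: comparison of two projections
-/

namespace Vale.Agent.P082.Every.C1

open scoped InnerProductSpace
open Vale.Agent.P078.General Vale.Agent.P132.Homog

universe u

variable {H : Type u} [NormedAddCommGroup H] [InnerProductSpace ℂ H] [CompleteSpace H]
variable {M : VonNeumannAlgebra H}

/-- A nonzero element contains a nonzero partial isometry. -/
theorem exists_pi_between {x a b : H →L[ℂ] H} (hx : x ∈ M) (ha : a * x = x) (hb : x * b = x)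
    (hx0 : x ≠ 0) : ∃ w ∈ M, w ≠ 0 ∧ w * (star w * w) = w ∧ a * w = w ∧ w * b = w := by
  have hpos : 0 < ‖x‖ / 4 := div_pos (norm_pos_iff.2 hx0) (by norm_num)
  obtain ⟨n, w, hw, hwa, hwb, hwx⟩ := exists_fam M hx hpos
  by_contra hcon
  push Not at hcon
  have h0 : ∀ i, w i = 0 := fun i => by
    by_contra hi
    exact hcon (w i) (hw.mem i) hi (hw.pi i) (hwa a ha i) (hwb b hb i)
  have h1 : ‖x‖ ≤ 2 * (‖x‖ / 4) := x.opNorm_le_bound (by positivity) fun u => by
    simpa [h0] using hwx u
  linarith [norm_pos_iff.2 hx0]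

/-- Two projections with `r M p = 0` are separated by a central projection. -/
theorem exists_central_between {r p : H →L[ℂ] H} (hr : r ∈ M) (hrp : IsStarProjection r)
    (h0 : ∀ y ∈ M, r * y * p = 0) :
    ∃ c ∈ M, IsStarProjection c ∧ (∀ x ∈ M, c * x = x * c) ∧ c * r = 0 ∧ c * p = p := by
  set K : Submodule ℂ H := ⨅ m : M.toStarSubalgebra,
    LinearMap.ker ((r * (m : H →L[ℂ] H) : H →L[ℂ] H) : H →ₗ[ℂ] H) with hK
  have hmem : ∀ v, v ∈ K ↔ ∀ m ∈ M, r (m v) = 0 := fun v => by
    rw [hK, Submodule.mem_iInf]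
    exact ⟨fun h m hm => h ⟨m, hm⟩, fun h m => h m.1 m.2⟩
  have hclosed : IsClosed (K : Set H) := by
    rw [hK, Submodule.coe_iInf]
    exact isClosed_iInter fun m => ContinuousLinearMap.isClosed_ker (r * (m : H →L[ℂ] H))
  have : CompleteSpace K := hclosed.completeSpace_coe
  set P := K.starProjection with hP
  have hPp : IsStarProjection P := isStarProjection_starProjection
  have hcomm : ∀ y : H →L[ℂ] H, (∀ v ∈ K, y v ∈ K) → (∀ v ∈ K, star y v ∈ K) →
      P * y = y * P := by
    intro y hy hy'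
    have k : ∀ z : H →L[ℂ] H, (∀ v ∈ K, z v ∈ K) → P * z * P = z * P := fun z hz =>
      ContinuousLinearMap.ext fun v =>
        Submodule.starProjection_eq_self_iff.2 (hz _ (Submodule.starProjection_apply_mem _ v))
    have e2 : P * y * P = P * y := by
      have := congrArg star (k _ hy')
      simpa [star_mul, hPp.isSelfAdjoint.star_eq, mul_assoc] using this
    exact e2.symm.trans (k y hy)
  have invM : ∀ y ∈ M, ∀ v ∈ K, y v ∈ K := fun y hy v hv => (hmem _).2 fun m hm => by
    have := (hmem v).1 hv (m * y) (mul_mem hm hy)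
    exact this
  have invC : ∀ y ∈ M.commutant, ∀ v ∈ K, y v ∈ K := fun y hy v hv => (hmem _).2 fun m hm => by
    have e := VonNeumannAlgebra.mem_commutant_iff.1 hy (r * m) (mul_mem hr hm)
    have e' := congrArg (fun f : H →L[ℂ] H => f v) e
    simp only [mul_apply_eq_comp] at e'
    rw [e', (hmem v).1 hv m hm, map_zero]
  refine ⟨P, mem_of_commute_commutant M fun y hy =>
    (hcomm y (invC y hy) (invC _ (star_mem hy))).symm, hPp, fun x hx =>
    hcomm x (invM x hx) (invM _ (star_mem hx)), ?_, ?_⟩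
  · have h1 : r * P = 0 := ContinuousLinearMap.ext fun v => by
      have := (hmem _).1 (Submodule.starProjection_apply_mem K v) 1 (one_mem M)
      simpa using this
    simpa [star_mul, hPp.isSelfAdjoint.star_eq, hrp.isSelfAdjoint.star_eq] using
      congrArg star h1
  · exact ContinuousLinearMap.ext fun v => Submodule.starProjection_eq_self_iff.2 <|
      (hmem _).2 fun m hm => congrArg (fun f : H →L[ℂ] H => f v) (h0 m hm)

/-- Comparison: under a central `c` the projection `r` is below `p`. -/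
theorem exists_compare {r p : H →L[ℂ] H} (hr : r ∈ M) (hp : p ∈ M) (hrp : IsStarProjection r)
    (hpp : IsStarProjection p) :
    ∃ c ∈ M, IsStarProjection c ∧ (∀ x ∈ M, c * x = x * c) ∧
      (∃ U ∈ M, star U * U = c * r ∧ p * U = U ∧ c * U = U) ∧
      (c * p = 0 → ∃ V ∈ M, star V * V = p ∧ r * V = V) := by
  classical
  set S : Set (Set (H →L[ℂ] H)) :=
    {B | (∀ w ∈ B, w ∈ M ∧ w * (star w * w) = w ∧ p * w = w ∧ w * r = w) ∧
      ∀ w ∈ B, ∀ w' ∈ B, w ≠ w' → star w * w' = 0 ∧ w * star w' = 0} with hS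
  obtain ⟨B, ⟨hB1, hB2⟩, hmax⟩ := zorn_subset S fun c hc hchain => by
    refine ⟨⋃₀ c, ⟨?_, ?_⟩, fun a ha => Set.subset_sUnion_of_mem ha⟩
    · rintro w ⟨a, ha, hw⟩
      exact (hc ha).1 w hw
    · rintro w ⟨a, ha, hw⟩ w' ⟨b, hb, hw'⟩ hne
      rcases hchain.total ha hb with h | h
      · exact (hc hb).2 w (h hw) w' hw' hne
      · exact (hc ha).2 w hw w' (h hw') hne
  have hF : PIFam fun i : B => i.1 :=
    { pi := fun i => (hB1 _ i.2).2.1
      orthL := fun i j h => (hB2 _ i.2 _ j.2 fun e => h (Subtype.ext e)).1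
      orthR := fun i j h => (hB2 _ i.2 _ j.2 fun e => h (Subtype.ext e)).2 }
  set U := hF.sum with hU
  have hUM : U ∈ M := hF.sum_mem fun i => (hB1 _ i.2).1
  have hpU : p * U = U := hF.mul_sum_eq fun i => (hB1 _ i.2).2.2.1
  have hUr : U * r = U := hF.sum_mul_eq fun i => (hB1 _ i.2).2.2.2
  have hrU : r * star U = star U := by
    simpa [star_mul, hrp.isSelfAdjoint.star_eq] using congrArg star hUr
  have hUU : U * (star U * U) = U := hF.sum_mul_star_self
  set r₀ := r - star U * U with hr₀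
  set p₀ := p - U * star U with hp₀
  have hr₀M : r₀ ∈ M := sub_mem hr (mul_mem (star_mem hUM) hUM)
  have hr₀p : IsStarProjection r₀ := by
    refine ⟨?_, hrp.isSelfAdjoint.sub (IsSelfAdjoint.star_mul_self U)⟩
    have e1 : r * (star U * U) = star U * U := by rw [← mul_assoc, hrU]
    have e2 : star U * U * r = star U * U := by rw [mul_assoc, hUr]
    have e3 : star U * U * (star U * U) = star U * U := by rw [mul_assoc, hUU]
    rw [IsIdempotentElem, hr₀, sub_mul, mul_sub, mul_sub, hrp.isIdempotentElem.eq, e1, e2, e3,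
      sub_self, sub_zero]
  have hkey : ∀ y ∈ M, r₀ * y * p₀ = 0 := by
    intro y hy
    by_contra hne
    set x := star (r₀ * y * p₀) with hx
    have hp₀M : p₀ ∈ M := sub_mem hp (mul_mem hUM (star_mem hUM))
    have hp₀s : star p₀ = p₀ :=
      (hpp.isSelfAdjoint.sub (IsSelfAdjoint.mul_star_self U)).star_eq
    have e1 : p * (U * star U) = U * star U := by rw [← mul_assoc, hpU]
    have e2 : U * star U * (U * star U) = U * star U := by
      rw [mul_assoc, ← mul_assoc (star U), ← mul_assoc U (star U * U), hUU]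
    have e1' : U * star U * p = U * star U := by
      simpa [star_mul, hpp.isSelfAdjoint.star_eq] using congrArg star e1
    have hp₀i : p₀ * p₀ = p₀ := by
      rw [hp₀, sub_mul, mul_sub, mul_sub, hpp.isIdempotentElem.eq, e1, e1', e2, sub_self, sub_zero]
    have hx' : x = p₀ * star y * r₀ := by
      rw [hx, star_mul, star_mul, hp₀s, hr₀p.isSelfAdjoint.star_eq, mul_assoc]
    obtain ⟨w, hwM, hw0, hwpi, hwp, hwr⟩ :=
      exists_pi_between (x := x) (a := p₀) (b := r₀) (star_mem (mul_mem (mul_mem hr₀M hy) hp₀M))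
        (by rw [hx', ← mul_assoc, ← mul_assoc, hp₀i])
        (by rw [hx', mul_assoc, hr₀p.isIdempotentElem.eq]) (fun h => hne (star_eq_zero.1 h))
    have hl : ∀ i : B, star i.1 * w = 0 := fun i => by
      have : p₀ * i.1 = 0 := by
        rw [hp₀, sub_mul, (hB1 _ i.2).2.2.1, hU, hF.range_mul i, sub_self]
      rw [← hwp, ← mul_assoc, show star i.1 * p₀ = 0 by
        simpa [star_mul, hp₀s] using congrArg star this, zero_mul]
    have hR : ∀ i : B, i.1 * star w = 0 := fun i => by
      have : i.1 * r₀ = 0 := by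
        have h1 := hF.star.range_mul i
        rw [← hF.star_sum, star_star, ← hU] at h1
        have h2 := congrArg star h1
        simp only [star_mul, star_star] at h2
        rw [hr₀, mul_sub, (hB1 _ i.2).2.2.2, h2, sub_self]
      rw [← hwr, star_mul, hr₀p.isSelfAdjoint.star_eq, ← mul_assoc, this, zero_mul]
    have hin : insert w B ∈ S := by
      refine ⟨?_, ?_⟩
      · rintro v (rfl | hv)
        · refine ⟨hwM, hwpi, ?_, ?_⟩
          · rw [← hwp, ← mul_assoc, hp₀, mul_sub, hpp.isIdempotentElem.eq, e1]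
          · rw [← hwr, mul_assoc, hr₀, sub_mul, hrp.isIdempotentElem.eq, mul_assoc, hUr]
        · exact hB1 v hv
      · rintro v (rfl | hv) v' (rfl | hv') hne'
        · exact absurd rfl hne'
        · exact ⟨by simpa [star_mul] using congrArg star (hl ⟨v', hv'⟩),
            by simpa [star_mul] using congrArg star (hR ⟨v', hv'⟩)⟩
        · exact ⟨hl ⟨v, hv⟩, hR ⟨v, hv⟩⟩
        · exact hB2 v hv v' hv' hne'
    have hwB : w ∈ B := hmax hin (Set.subset_insert w B) (Set.mem_insert w B)
    exact hw0 (eq_zero_of_star_mul_self (hl ⟨w, hwB⟩))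
  obtain ⟨c, hcM, hcp, hcc, hcr, hcp₀⟩ := exists_central_between hr₀M hr₀p hkey
  have hci : c * c = c := hcp.isIdempotentElem.eq
  refine ⟨c, hcM, hcp, hcc, ⟨c * U, mul_mem hcM hUM, ?_, ?_, by rw [← mul_assoc, hci]⟩,
    fun h0 => ⟨star U, star_mem hUM, ?_, hrU⟩⟩
  · rw [star_mul, hcp.isSelfAdjoint.star_eq, mul_assoc, ← mul_assoc c, hci, ← mul_assoc,
      ← hcc _ (star_mem hUM), mul_assoc, ← sub_eq_zero]
    rw [← neg_eq_zero, neg_sub, ← mul_sub]
    exact hcr
  · rw [← mul_assoc, ← hcc p hp, mul_assoc, hpU]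
  · have h1 : p₀ = 0 := by
      rw [← hcp₀, hp₀, mul_sub, h0, ← hpU, ← mul_assoc c, ← mul_assoc c, h0, zero_mul, zero_mul,
        sub_zero]
    rw [star_star]
    exact (sub_eq_zero.1 h1).symm

end Vale.Agent.P082.Every.C1
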