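import Vale.Agent.P082.Scope.Sums

/-!
# P082: sums of orthogonal partial isometries
-/

namespace Vale.Agent.P082.Every.C1

open scoped InnerProductSpace
open Vale.Agent.P078.General Vale.Agent.P132.Homog Vale.Agent.P082.Scope

universe u v

variable {H : Type u} [NormedAddCommGroup H] [InnerProductSpace ℂ H] [CompleteSpace H]

/-- An element with vanishing `star x * x` vanishes. -/
theorem eq_zero_of_star_mul_self {x : H →L[ℂ] H} (h : star x * x = 0) : x = 0 :=
  CStarRing.star_mul_self_eq_zero_iff x |>.1 h

/-- Partial isometries with orthogonal initial and orthogonal final projections. -/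
structure PIFam {ι : Type v} (w : ι → H →L[ℂ] H) : Prop where
  pi : ∀ i, w i * (star (w i) * w i) = w i
  orthL : ∀ i j, i ≠ j → star (w i) * w j = 0
  orthR : ∀ i j, i ≠ j → w i * star (w j) = 0

theorem PIFam.of_proj {ι : Type v} {p : ι → H →L[ℂ] H} (hp : ∀ i, IsStarProjection (p i))
    (ho : ∀ i j, i ≠ j → p i * p j = 0) : PIFam p where
  pi i := by rw [(hp i).isSelfAdjoint.star_eq, (hp i).isIdempotentElem.eq,
    (hp i).isIdempotentElem.eq]
  orthL i j h := by rw [(hp i).isSelfAdjoint.star_eq, ho i j h]
  orthR i j h := by rw [(hp j).isSelfAdjoint.star_eq, ho i j h]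

namespace PIFam

variable {ι : Type v} {w : ι → H →L[ℂ] H}

theorem star (h : PIFam w) : PIFam fun i => Star.star (w i) where
  pi i := by
    have := congrArg Star.star (h.pi i)
    rw [star_mul, star_mul, star_star] at this
    rw [star_star, ← mul_assoc]
    exact this
  orthL i j hij := by rw [star_star]; exact h.orthR i j hij
  orthR i j hij := by rw [star_star]; exact h.orthL i j hij

theorem src_proj (h : PIFam w) (i : ι) : IsStarProjection (Star.star (w i) * w i) :=
  ⟨by rw [IsIdempotentElem, mul_assoc, h.pi i], IsSelfAdjoint.star_mul_self _⟩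

theorem src_orth (h : PIFam w) (i j : ι) (hij : i ≠ j) :
    Star.star (w i) * w i * (Star.star (w j) * w j) = 0 := by
  rw [mul_assoc, ← mul_assoc (w i), h.orthR i j hij, zero_mul, mul_zero]

theorem src (h : PIFam w) : PIFam fun i => Star.star (w i) * w i :=
  PIFam.of_proj h.src_proj h.src_orth

theorem srcDiag (h : PIFam w) :
    IsDiag (fun i => Star.star (w i) * w i) fun i => Star.star (w i) * w i where
  proj := h.src_proj
  orth := h.src_orth
  left i := (h.src_proj i).isIdempotentElem.eq
  right i := (h.src_proj i).isIdempotentElem.eq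
  norm_le i := IsStarProjection.norm_le _ (h.src_proj i)

theorem norm_sq_sum (h : PIFam w) (t : Finset ι) (v : H) :
    ‖∑ i ∈ t, w i v‖ ^ 2 = ∑ i ∈ t, ‖(Star.star (w i) * w i) v‖ ^ 2 := by
  rw [norm_sq_sum_of_orth t (fun i => w i v) fun i _ j _ hij => by
    rw [inner_left, ← mul_apply_eq_comp, h.orthL i j hij, zero_apply, inner_zero_right]]
  exact Finset.sum_congr rfl fun i _ => by rw [norm_pi_apply (h.pi i)]

theorem summable (h : PIFam w) (v : H) : Summable fun i => w i v := by
  have hs : Summable fun i => ‖(Star.star (w i) * w i) v‖ ^ 2 :=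
    summable_of_sum_le (fun i => sq_nonneg _) fun t => h.srcDiag.sum_sq_le t v
  rw [summable_iff_vanishing_norm]
  intro ε hε
  obtain ⟨t, ht⟩ := summable_iff_vanishing_norm.1 hs (ε ^ 2) (by positivity)
  refine ⟨t, fun t' ht' => ?_⟩
  have h1 := ht t' ht'
  rw [Real.norm_eq_abs, abs_of_nonneg (Finset.sum_nonneg fun i _ => sq_nonneg _),
    ← h.norm_sq_sum] at h1
  exact lt_of_pow_lt_pow_left₀ 2 hε.le h1

/-- The sum of the family. -/
noncomputable def sum (h : PIFam w) : H →L[ℂ] H :=
  LinearMap.mkContinuous
    { toFun := fun v => ∑' i, w i v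
      map_add' := fun v u => by simp only [map_add, (h.summable v).tsum_add (h.summable u)]
      map_smul' := fun c v => by
        simp only [map_smul, RingHom.id_apply, (h.summable v).tsum_const_smul] }
    1 fun v => by
      show ‖∑' i, w i v‖ ≤ 1 * ‖v‖
      rw [one_mul]
      refine le_of_tendsto (h.summable v).hasSum.norm (Filter.Eventually.of_forall fun t => ?_)
      exact (pow_le_pow_iff_left₀ (norm_nonneg _) (norm_nonneg _) two_ne_zero).1
        ((h.norm_sq_sum t v).trans_le (h.srcDiag.sum_sq_le t v))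

theorem sum_apply (h : PIFam w) (v : H) : h.sum v = ∑' i, w i v := rfl

theorem mul_sum_apply (h : PIFam w) (a : H →L[ℂ] H) (v : H) :
    (a * h.sum) v = ∑' i, (a * w i) v := by
  rw [mul_apply_eq_comp, sum_apply, a.map_tsum (h.summable v)]
  rfl

theorem sum_mul_apply (h : PIFam w) (a : H →L[ℂ] H) (v : H) :
    (h.sum * a) v = ∑' i, (w i * a) v := rfl

theorem mul_sum_eq (h : PIFam w) {a : H →L[ℂ] H} (ha : ∀ i, a * w i = w i) : a * h.sum = h.sum :=
  ContinuousLinearMap.ext fun v => by simp only [mul_sum_apply, ha, sum_apply]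

theorem sum_mul_eq (h : PIFam w) {a : H →L[ℂ] H} (ha : ∀ i, w i * a = w i) : h.sum * a = h.sum :=
  ContinuousLinearMap.ext fun v => by simp only [sum_mul_apply, ha, sum_apply]

theorem mul_sum_zero (h : PIFam w) {a : H →L[ℂ] H} (ha : ∀ i, a * w i = 0) : a * h.sum = 0 :=
  ContinuousLinearMap.ext fun v => by simp only [mul_sum_apply, ha, zero_apply, tsum_zero]

theorem mul_sum_single (h : PIFam w) {a : H →L[ℂ] H} (i : ι) (ha : ∀ j, j ≠ i → a * w j = 0) :
    a * h.sum = a * w i :=
  ContinuousLinearMap.ext fun v => by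
    rw [mul_sum_apply, tsum_eq_single i fun j hj => by rw [ha j hj, zero_apply]]

theorem sum_mul_single (h : PIFam w) {a : H →L[ℂ] H} (i : ι) (ha : ∀ j, j ≠ i → w j * a = 0) :
    h.sum * a = w i * a :=
  ContinuousLinearMap.ext fun v => by
    rw [sum_mul_apply, tsum_eq_single i fun j hj => by rw [ha j hj, zero_apply]]

theorem star_single_mul_sum (h : PIFam w) (i : ι) :
    Star.star (w i) * h.sum = Star.star (w i) * w i :=
  h.mul_sum_single i fun j hj => h.orthL i j hj.symm

theorem sum_mul_src (h : PIFam w) (i : ι) : h.sum * (Star.star (w i) * w i) = w i := by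
  rw [h.sum_mul_single i fun j hj => by rw [← mul_assoc, h.orthR j i hj, zero_mul], h.pi i]

theorem range_mul (h : PIFam w) (i : ι) : h.sum * Star.star h.sum * w i = w i := by
  have e : Star.star h.sum * w i = Star.star (w i) * w i := by
    simpa [star_mul] using congrArg Star.star (h.star_single_mul_sum i)
  rw [mul_assoc, e, h.sum_mul_src]

theorem star_sum (h : PIFam w) : Star.star h.sum = h.star.sum := by
  refine ((ContinuousLinearMap.eq_adjoint_iff _ _).2 fun u v => ?_).symm
  rw [sum_apply, sum_apply, ← inner_conj_symm]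
  have h1 := (innerSL ℂ v).map_tsum (h.star.summable u)
  have h2 := (innerSL ℂ u).map_tsum (h.summable v)
  rw [show ⟪v, ∑' i, (Star.star (w i)) u⟫_ℂ = _ from h1,
    show ⟪u, ∑' i, w i v⟫_ℂ = _ from h2, Complex.conj_tsum]
  refine tsum_congr fun i => ?_
  show starRingEnd ℂ ⟪v, Star.star (w i) u⟫_ℂ = ⟪u, w i v⟫_ℂ
  rw [inner_conj_symm, inner_left, star_star]

theorem star_mul_self (h : PIFam w) : Star.star h.sum * h.sum = h.src.sum := by
  rw [h.star_sum]
  refine ContinuousLinearMap.ext fun v => ?_
  rw [sum_mul_apply, sum_apply h.src]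
  simp only [h.star_single_mul_sum]

theorem mul_star_self (h : PIFam w) :
    h.sum * Star.star h.sum = h.star.src.sum := by
  rw [← h.star.star_mul_self, ← h.star_sum, star_star]

theorem sum_mul_star_self (h : PIFam w) : h.sum * (Star.star h.sum * h.sum) = h.sum := by
  rw [← mul_assoc, h.mul_sum_eq fun i => h.range_mul i]

theorem sum_mem (h : PIFam w) {M : VonNeumannAlgebra H} (hM : ∀ i, w i ∈ M) : h.sum ∈ M :=
  mem_of_commute_commutant M fun y hy => ContinuousLinearMap.ext fun v => by
    simp only [mul_sum_apply, sum_mul_apply,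
      fun i => VonNeumannAlgebra.mem_commutant_iff.1 hy _ (hM i)]

theorem sum_proj {p : ι → H →L[ℂ] H} (h : PIFam p) (hp : ∀ i, IsStarProjection (p i)) :
    IsStarProjection h.sum := by
  have hs : Star.star h.sum = h.sum := by
    rw [h.star_sum]
    exact ContinuousLinearMap.ext fun v => by
      simp only [sum_apply, (hp _).isSelfAdjoint.star_eq]
  have hsq : Star.star h.sum * h.sum = h.sum := by
    rw [h.star_mul_self]
    exact ContinuousLinearMap.ext fun v => by
      simp only [sum_apply, (hp _).isSelfAdjoint.star_eq, (hp _).isIdempotentElem.eq]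
  refine ⟨?_, hs⟩
  rw [IsIdempotentElem]
  nth_rewrite 1 [← hs]
  exact hsq

end PIFam

end Vale.Agent.P082.Every.C1
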