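import Vale.Agent.P082.Every.C1.Pair
import Vale.Agent.P082.Every.Iface

/-!
# P082: the properly infinite summand and the finite summand
-/

namespace Vale.Agent.P082.Every.C1

universe u

variable {H : Type u} [NormedAddCommGroup H] [InnerProductSpace ℂ H] [CompleteSpace H]
variable {M : VonNeumannAlgebra H}

/-- An element whose square is below a central projection lives there. -/
theorem mul_of_src {c s : H →L[ℂ] H} (hc : IsCentralProj M c) (hs : s ∈ M)
    (h : star s * s = c) : s * c = s ∧ c * s = s := by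
  have h1 : s * c = s := by
    have h' := pi_of_src hc.proj h
    rwa [h] at h'
  exact ⟨h1, by rw [hc.comm s hs, h1]⟩

/-- Every algebra is a properly infinite part plus a finite part. -/
theorem stmtC1 : StmtC1.{u} := by
  intro H _ _ _ M
  classical
  set S : Set (Set (H →L[ℂ] H)) :=
    {B | (∀ c ∈ B, IsO2 M c) ∧ ∀ c ∈ B, ∀ c' ∈ B, c ≠ c' → c * c' = 0} with hS
  obtain ⟨B, ⟨hB1, hB2⟩, hmax⟩ := zorn_subset S fun c hc hchain => by
    refine ⟨⋃₀ c, ⟨?_, ?_⟩, fun a ha => Set.subset_sUnion_of_mem ha⟩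
    · rintro p ⟨a, ha, hp⟩
      exact (hc ha).1 p hp
    · rintro p ⟨a, ha, hp⟩ q ⟨b, hb, hq⟩ hne
      rcases hchain.total ha hb with h | h
      · exact (hc hb).2 p (h hp) q hq hne
      · exact (hc ha).2 p hp q (h hq) hne
  have ho : ∀ i j : B, i ≠ j → i.1 * j.1 = 0 := fun i j h =>
    hB2 _ i.2 _ j.2 fun e => h (Subtype.ext e)
  choose s hsM t htM hs ht hst using fun i : B => (hB1 _ i.2).2
  have hC : ∀ i : B, IsCentralProj M i.1 := fun i => (hB1 _ i.2).1
  have hF := PIFam.of_proj (fun i : B => (hC i).proj) ho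
  have mk : ∀ x : B → H →L[ℂ] H, (∀ i, x i ∈ M) → (∀ i, star (x i) * x i = i.1) → PIFam x :=
    fun x hxM hx =>
    { pi := fun i => by rw [hx i]; exact (mul_of_src (hC i) (hxM i) (hx i)).1
      orthL := fun i j h => by
        have hl : star (x i) * i.1 = star (x i) := by
          simpa [star_mul, (hC i).proj.isSelfAdjoint.star_eq] using
            congrArg star (mul_of_src (hC i) (hxM i) (hx i)).2
        rw [← hl, ← (mul_of_src (hC j) (hxM j) (hx j)).2, mul_assoc, ← mul_assoc i.1, ho i j h,
          zero_mul, mul_zero]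
      orthR := fun i j h => by
        rw [← (mul_of_src (hC i) (hxM i) (hx i)).1, ← (mul_of_src (hC j) (hxM j) (hx j)).1,
          star_mul, (hC j).proj.isSelfAdjoint.star_eq, mul_assoc, ← mul_assoc i.1, ho i j h,
          zero_mul, mul_zero] }
  have hs' := mk s hsM hs
  have ht' := mk t htM ht
  set z := hF.sum with hz
  have hzM : z ∈ M := hF.sum_mem fun i => (hC i).mem
  have hzp : IsStarProjection z := hF.sum_proj fun i => (hC i).proj
  have hzc : ∀ x ∈ M, z * x = x * z := fun x hx => ContinuousLinearMap.ext fun v => by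
    rw [hF.sum_mul_apply, hF.mul_sum_apply]
    exact tsum_congr fun i => by rw [(hC i).comm x hx]
  have hsrc : ∀ (x : B → H →L[ℂ] H) (h : PIFam x), (∀ i, star (x i) * x i = i.1) →
      star h.sum * h.sum = z := fun x h hx => by
    rw [h.star_mul_self]
    exact ContinuousLinearMap.ext fun v => by simp only [PIFam.sum_apply, hx, hz]
  refine ⟨z, hzM, hzp, hzc, ⟨hs'.sum, hs'.sum_mem hsM, ht'.sum, ht'.sum_mem htM,
    hsrc s hs' hs, hsrc t ht' ht, ?_⟩, fun v hv hvv => ?_⟩
  · rw [hs'.mul_star_self, ht'.mul_star_self]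
    refine ContinuousLinearMap.ext fun v => ?_
    rw [add_apply, PIFam.sum_apply, PIFam.sum_apply, hz, PIFam.sum_apply,
      ← (hs'.star.src.summable v).tsum_add (ht'.star.src.summable v)]
    exact tsum_congr fun i => by rw [← add_apply, star_star, star_star, hst]
  · by_contra hne
    have hq : IsCentralProj M (1 - z) :=
      ⟨sub_mem (one_mem M) hzM, hzp.one_sub, fun x hx => by
        rw [sub_mul, mul_sub, one_mul, mul_one, hzc x hx]⟩
    obtain ⟨c, hc, hqc, hc0⟩ := exists_isO2_below hq hv hvv hne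
    have hzc0 : z * c = 0 := by
      rw [← hqc, ← mul_assoc, mul_sub, mul_one, hzp.isIdempotentElem.eq, sub_self, zero_mul]
    have horth : ∀ i : B, i.1 * c = 0 := fun i => by
      have hiz : i.1 * z = i.1 := by
        rw [hz, hF.mul_sum_single i fun j hj => ho i j (Ne.symm hj),
          (hC i).proj.isIdempotentElem.eq]
      rw [← hiz, mul_assoc, hzc0, mul_zero]
    have hin : insert c B ∈ S := by
      refine ⟨?_, ?_⟩
      · rintro p (rfl | hp)
        exacts [hc, hB1 p hp]
      · rintro p (rfl | hp) q (rfl | hq') hne'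
        exacts [absurd rfl hne', by rw [hc.1.comm q (hC ⟨q, hq'⟩).mem]; exact horth ⟨q, hq'⟩,
          horth ⟨p, hp⟩, hB2 p hp q hq' hne']
    have hcB : c ∈ B := hmax hin (Set.subset_insert c B) (Set.mem_insert c B)
    exact hc0 (hc.1.proj.isIdempotentElem.eq.symm.trans (horth ⟨c, hcB⟩))

end Vale.Agent.P082.Every.C1
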