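import Vale.Agent.P082.Every.C1.Compare

/-!
# P082: an isometry that is not a unitary gives a properly infinite summand
-/

namespace Vale.Agent.P082.Every.C1

open scoped Cardinal
open Vale.Agent.P078.General

universe u

variable {H : Type u} [NormedAddCommGroup H] [InnerProductSpace ℂ H] [CompleteSpace H]
variable {M : VonNeumannAlgebra H}

/-- An element whose square is a projection is a partial isometry. -/
theorem pi_of_src {w p : H →L[ℂ] H} (hp : IsStarProjection p) (h : star w * w = p) :
    w * (star w * w) = w := by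
  rw [h]
  refine sub_eq_zero.1 (eq_zero_of_star_mul_self ?_)
  rw [star_sub, star_mul, hp.isSelfAdjoint.star_eq, sub_mul, mul_sub, mul_sub, mul_assoc p (star w),
    mul_assoc p (star w), ← mul_assoc (star w) w p, h, hp.isIdempotentElem.eq,
    hp.isIdempotentElem.eq, sub_self]

/-- A central projection of `M`. -/
structure IsCentralProj (M : VonNeumannAlgebra H) (c : H →L[ℂ] H) : Prop where
  mem : c ∈ M
  proj : IsStarProjection c
  comm : ∀ x ∈ M, c * x = x * c

theorem IsCentralProj.mul {c d : H →L[ℂ] H} (hc : IsCentralProj M c) (hd : IsCentralProj M d) :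
    IsCentralProj M (c * d) where
  mem := mul_mem hc.mem hd.mem
  proj := by
    refine ⟨?_, ?_⟩
    · rw [IsIdempotentElem, mul_assoc c d, ← mul_assoc d, hd.comm c hc.mem, mul_assoc c d d,
        hd.proj.isIdempotentElem.eq, ← mul_assoc, hc.proj.isIdempotentElem.eq]
    · rw [IsSelfAdjoint, star_mul, hd.proj.isSelfAdjoint.star_eq, hc.proj.isSelfAdjoint.star_eq,
        hd.comm c hc.mem]
  comm x hx := by rw [mul_assoc, hd.comm x hx, ← mul_assoc, hc.comm x hx, mul_assoc]

/-- A properly infinite central projection, with its witness. -/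
def IsO2 (M : VonNeumannAlgebra H) (c : H →L[ℂ] H) : Prop :=
  IsCentralProj M c ∧
    ∃ s ∈ M, ∃ t ∈ M, star s * s = c ∧ star t * t = c ∧ s * star s + t * star t = c

/-- Cantor-Bernstein for an isometry of `d` into `f ≤ d`. -/
theorem exists_onto {d f S : H →L[ℂ] H} (hdM : d ∈ M) (hd : IsStarProjection d) (hfM : f ∈ M)
    (hf : IsStarProjection f) (hdf : d * f = f) (hSM : S ∈ M) (hS : star S * S = d)
    (hSd : S * d = S) (hfS : f * S = S) :
    ∃ W ∈ M, star W * W = d ∧ W * star W = f := by
  set g := d - f with hg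
  have hfd : f * d = f := by
    simpa [star_mul, hd.isSelfAdjoint.star_eq, hf.isSelfAdjoint.star_eq] using congrArg star hdf
  have hgp : IsStarProjection g := by
    refine ⟨?_, hd.isSelfAdjoint.sub hf.isSelfAdjoint⟩
    rw [IsIdempotentElem, hg, sub_mul, mul_sub, mul_sub, hd.isIdempotentElem.eq,
      hf.isIdempotentElem.eq, hdf, hfd, sub_self, sub_zero]
  have hdS : d * S = S := by rw [← hfS, ← mul_assoc, hdf]
  have hdg : d * g = g := by rw [hg, mul_sub, hd.isIdempotentElem.eq, hdf]
  have hgd : g * d = g := by rw [hg, sub_mul, hd.isIdempotentElem.eq, hfd]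
  have hgS : g * S = 0 := by rw [hg, sub_mul, hdS, hfS, sub_self]
  set T : ℕ → H →L[ℂ] H := fun n => n.rec g fun _ X => S * X * star S with hT
  have hT1 : ∀ n, T (n + 1) = S * T n * star S := fun n => rfl
  have hTd : ∀ n, d * T n = T n ∧ T n * d = T n := by
    intro n
    induction n with
    | zero => exact ⟨hdg, hgd⟩
    | succ n ih =>
      refine ⟨by rw [hT1, ← mul_assoc, ← mul_assoc, hdS], ?_⟩
      rw [hT1, mul_assoc, show star S * d = star S by
        simpa [star_mul, hd.isSelfAdjoint.star_eq] using congrArg star hdS]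
  have hTp : ∀ n, IsStarProjection (T n) := by
    intro n
    induction n with
    | zero => exact hgp
    | succ n ih =>
      refine ⟨?_, ih.isSelfAdjoint.conjugate S⟩
      rw [IsIdempotentElem, hT1, mul_assoc (S * T n), ← mul_assoc (star S), ← mul_assoc (star S),
        hS, (hTd n).1, mul_assoc S (T n), ← mul_assoc (T n), ih.isIdempotentElem.eq, mul_assoc]
  have hTo : ∀ n k, T n * T (n + (k + 1)) = 0 := by
    intro n
    induction n with
    | zero =>
      intro k
      rw [show 0 + (k + 1) = k + 1 by omega, hT1]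
      show g * (S * T k * star S) = 0
      rw [← mul_assoc, ← mul_assoc, hgS, zero_mul, zero_mul]
    | succ n ih =>
      intro k
      rw [show n + 1 + (k + 1) = n + (k + 1) + 1 by omega, hT1, hT1, mul_assoc (S * T n),
        ← mul_assoc (star S), ← mul_assoc (star S), hS, (hTd _).1, mul_assoc S (T n),
        ← mul_assoc (T n), ih k, zero_mul, mul_zero]
  have horth : ∀ m n, m ≠ n → T m * T n = 0 := by
    intro m n hmn
    rcases lt_or_gt_of_ne hmn with h | h
    · obtain ⟨k, rfl⟩ := Nat.exists_eq_add_of_lt h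
      exact hTo m k
    · obtain ⟨k, rfl⟩ := Nat.exists_eq_add_of_lt h
      simpa [star_mul, (hTp _).isSelfAdjoint.star_eq, Nat.add_assoc] using congrArg star (hTo n k)
  have hF := PIFam.of_proj hTp horth
  set G := hF.sum with hGdef
  have hG : IsStarProjection G := hF.sum_proj hTp
  have hTM : ∀ n, T n ∈ M := by
    intro n
    induction n with
    | zero => exact sub_mem hdM hfM
    | succ n ih => exact mul_mem (mul_mem hSM ih) (star_mem hSM)
  have hdG : d * G = G := hF.mul_sum_eq fun n => (hTd n).1
  have hGd : G * d = G := hF.sum_mul_eq fun n => (hTd n).2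
  have hsplit : G = g + S * G * star S := by
    refine ContinuousLinearMap.ext fun v => ?_
    rw [add_apply, hF.sum_apply, (hF.summable v).tsum_eq_zero_add]
    congr 1
    rw [mul_apply_eq_comp (S * G), hF.mul_sum_apply]
    rfl
  have hGg : G * g = g := by
    show hF.sum * T 0 = g
    rw [hF.sum_mul_single 0 fun j hj => horth j 0 hj]
    exact hgp.isIdempotentElem.eq
  have hSGS : S * G * star S = G - g := eq_sub_of_add_eq' hsplit.symm
  have hSG : S * G = (G - g) * S := by rw [← hSGS, mul_assoc, hS, mul_assoc, hGd]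
  have hX : (d - G) * (S * G) = 0 := by
    rw [hSG, ← mul_assoc, sub_mul d G, mul_sub d, mul_sub G, hdG, hdg, hG.isIdempotentElem.eq,
      hGg, sub_self, zero_mul]
  set Y := d - G with hY
  have hYs : star Y = Y := (hd.isSelfAdjoint.sub hG.isSelfAdjoint).star_eq
  have hYY : Y * Y = Y := by
    rw [hY, sub_mul, mul_sub, mul_sub, hd.isIdempotentElem.eq, hdG, hGd, hG.isIdempotentElem.eq,
      sub_self, sub_zero]
  have hGY : G * Y = 0 := by rw [hY, mul_sub, hGd, hG.isIdempotentElem.eq, sub_self]
  refine ⟨S * G + Y, add_mem (mul_mem hSM (hF.sum_mem hTM)) (sub_mem hdM (hF.sum_mem hTM)), ?_, ?_⟩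
  · have h1 : star (S * G) * (S * G) = G := by
      rw [star_mul, hG.isSelfAdjoint.star_eq, mul_assoc, ← mul_assoc (star S), hS, hdG,
        hG.isIdempotentElem.eq]
    have h2 : star (S * G) * Y = 0 := by
      simpa [star_mul, hYs] using congrArg star hX
    rw [star_add, hYs, add_mul, mul_add, mul_add, h1, h2, hX, hYY, add_zero, zero_add, hY,
      add_sub_cancel]
  · have h1 : S * G * star (S * G) = G - g := by
      rw [star_mul, hG.isSelfAdjoint.star_eq, mul_assoc, ← mul_assoc G,
        hG.isIdempotentElem.eq, ← mul_assoc, hSGS]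
    have h2 : S * G * Y = 0 := by rw [mul_assoc, hGY, mul_zero]
    have h3 : Y * star (S * G) = 0 := by simpa [star_mul, hYs] using congrArg star h2
    rw [star_add, hYs, add_mul, mul_add, mul_add, h1, h2, h3, hYY, add_zero, zero_add, hY, hg]
    abel

/-- Infinitely many copies of `p` and a remainder below `p` give two isometries. -/
theorem exists_pair_of_copies {d p r U : H →L[ℂ] H} (hd : IsCentralProj M d) (hp : p ∈ M)
    (hr : r ∈ M) (hrp : IsStarProjection r) (B : Set (H →L[ℂ] H)) [Infinite B]
    (hB : ∀ w ∈ B, w ∈ M ∧ star w * w = p ∧ w * (star w * w) = w)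
    (hBo : ∀ w ∈ B, ∀ w' ∈ B, w ≠ w' → star w * w' = 0)
    (hsum : ∀ v, (∑' w : B, (d * (w.1 * star w.1)) v) + (d * r) v = d v)
    (hBr : ∀ w ∈ B, star w * r = 0)
    (hUM : U ∈ M) (hU : star U * U = d * r) (hpU : p * U = U) (hdU : d * U = U) :
    IsO2 M d := by
  classical
  have hdd : d * d = d := hd.proj.isIdempotentElem.eq
  have hds : star d = d := hd.proj.isSelfAdjoint.star_eq
  have hwp : ∀ w : B, w.1 * p = w.1 := fun w => by
    conv_lhs => rw [← (hB _ w.2).2.1]
    exact (hB _ w.2).2.2
  have hpw : ∀ w : B, p * star w.1 = star w.1 := fun w => by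
    have hps : star p = p := by rw [← (hB _ w.2).2.1, star_mul, star_star]
    simpa [star_mul, hps] using congrArg star (hwp w)
  have hUr : U * r = U := by
    refine sub_eq_zero.1 (eq_zero_of_star_mul_self ?_)
    have hrs := hrp.isSelfAdjoint.star_eq
    have hri := hrp.isIdempotentElem.eq
    rw [star_sub, star_mul, hrs, sub_mul, mul_sub, mul_sub, mul_assoc r (star U), mul_assoc r (star U),
      ← mul_assoc (star U) U r, hU, ← mul_assoc r d r, ← hd.comm r hr, mul_assoc d r r, hri,
      ← mul_assoc r d, ← hd.comm r hr, mul_assoc d r r, hri, sub_self]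
  set a : Option B → H →L[ℂ] H := fun o => o.elim U fun w => d * star w.1 with ha
  have haM : ∀ o, a o ∈ M := fun o => by
    cases o with
    | none => exact hUM
    | some w => exact mul_mem hd.mem (star_mem (hB _ w.2).1)
  have hda : ∀ o, d * a o = a o := fun o => by
    cases o with
    | none => exact hdU
    | some w => show d * (d * _) = _; rw [← mul_assoc, hdd]; rfl
  have hpa : ∀ o, p * a o = a o := fun o => by
    cases o with
    | none => exact hpU
    | some w => show p * (d * _) = _; rw [← mul_assoc, ← hd.comm p hp, mul_assoc, hpw]; rfl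
  have hpia : ∀ o, a o * (star (a o) * a o) = a o := fun o => by
    cases o with
    | none =>
      show U * (star U * U) = U
      rw [hU, hd.comm r hr, ← mul_assoc, hUr, ← hd.comm U hUM, hdU]
    | some w =>
      show d * star w.1 * (star (d * star w.1) * (d * star w.1)) = d * star w.1
      rw [star_mul, star_star, hds, mul_assoc w.1 d, ← mul_assoc d d, hdd, ← mul_assoc w.1,
        ← hd.comm _ (hB _ w.2).1, mul_assoc d (star w.1), mul_assoc d w.1,
        ← mul_assoc (star w.1) d, ← hd.comm _ (star_mem (hB _ w.2).1), mul_assoc d (star w.1),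
        ← mul_assoc d d, hdd, ← mul_assoc (star w.1), (hB _ w.2).2.1, hpw]
  have hao : ∀ o o', o ≠ o' → a o * star (a o') = 0 := by
    have key : ∀ w : B, U * w.1 = 0 := fun w => by
      rw [← hUr, mul_assoc, show r * w.1 = 0 by
        simpa [star_mul, hrp.isSelfAdjoint.star_eq] using congrArg star (hBr _ w.2), mul_zero]
    intro o o' hne
    cases o with
    | none =>
      cases o' with
      | none => exact absurd rfl hne
      | some w =>
        show U * star (d * star w.1) = 0
        rw [star_mul, star_star, hds, ← mul_assoc, key, zero_mul]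
    | some w =>
      cases o' with
      | none =>
        show d * star w.1 * star U = 0
        rw [mul_assoc, ← star_mul, key, star_zero, mul_zero]
      | some w' =>
        show d * star w.1 * star (d * star w'.1) = 0
        rw [star_mul, star_star, hds, mul_assoc, ← mul_assoc (star w.1),
          hBo _ w.2 _ w'.2 (fun e => hne (by rw [Subtype.ext e])), zero_mul, mul_zero]
  obtain ⟨e⟩ : Nonempty (Bool × Option B ↪ B) := by
    have hB0 : ℵ₀ ≤ Cardinal.mk B := Cardinal.infinite_iff.1 inferInstance
    rw [← Cardinal.le_def, Cardinal.mk_prod, Cardinal.mk_option, Cardinal.add_one_eq hB0,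
      Cardinal.mk_bool]
    simp only [Cardinal.lift_ofNat, Cardinal.lift_uzero]
    refine le_trans (mul_le_mul' (show _ ≤ Cardinal.mk B from ?_) le_rfl)
      (Cardinal.mul_eq_self hB0).le
    exact (Cardinal.natCast_le_aleph0 (n := 2)).trans hB0
  set f : Bool → Option B → H →L[ℂ] H := fun b o => (e (b, o)).1 * a o with hf
  have hfo : ∀ b o b' o', (b, o) ≠ (b', o') → star (f b o) * f b' o' = 0 := by
    intro b o b' o' hne
    simp only [hf]
    rw [star_mul, mul_assoc, ← mul_assoc (star (e (b, o)).1), hBo _ (e (b, o)).2 _ (e (b', o')).2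
      (fun h => hne (e.injective (Subtype.ext h))), zero_mul, mul_zero]
  have hfs : ∀ b o, star (f b o) * f b o = star (a o) * a o := by
    intro b o
    simp only [hf]
    rw [star_mul, mul_assoc, ← mul_assoc (star (e (b, o)).1), (hB _ (e (b, o)).2).2.1, hpa]
  have hfam : ∀ b, PIFam (f b) := fun b =>
    { pi := fun o => by rw [hfs]; simp only [hf]; rw [mul_assoc, hpia]
      orthL := fun o o' h => hfo b o b o' fun e => h (Prod.ext_iff.1 e).2
      orthR := fun o o' h => by
        simp only [hf]
        rw [star_mul, mul_assoc, ← mul_assoc (a o), hao o o' h, zero_mul, mul_zero] }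
  have hSS : ∀ b, star (hfam b).sum * (hfam b).sum = d := by
    intro b
    rw [(hfam b).star_mul_self]
    refine ContinuousLinearMap.ext fun v => ?_
    rw [PIFam.sum_apply, ((hfam b).src.summable v).tsum_eq_add_tsum_ite none]
    simp only [hfs]
    rw [← (Option.some_injective B).tsum_eq (f := fun o => if o = none then (0 : H) else
      (star (a o) * a o) v) fun o ho => by
        cases o with
        | none => simp at ho
        | some w => exact ⟨w, rfl⟩]
    simp only [reduceCtorEq, if_false, ha, Option.elim]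
    rw [hU, add_comm, ← hsum v]
    congr 1
    refine tsum_congr fun w => congrArg (fun A : H →L[ℂ] H => A v) ?_
    rw [star_mul, star_star, hds, mul_assoc w.1 d, ← mul_assoc d d, hdd, ← mul_assoc w.1,
      ← hd.comm _ (hB _ w.2).1, mul_assoc]
  have hdf : ∀ b, d * (hfam b).sum = (hfam b).sum := fun b => (hfam b).mul_sum_eq fun o => by
    simp only [hf]
    rw [← mul_assoc, hd.comm _ (hB _ (e (b, o)).2).1, mul_assoc, hda]
  set S := fun b => (hfam b).sum with hS
  have hSM : ∀ b, S b ∈ M := fun b =>
    (hfam b).sum_mem fun o => mul_mem (hB _ (e (b, o)).2).1 (haM o)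
  have hcross : star (S true) * S false = 0 := by
    simp only [hS]
    rw [(hfam true).star_sum]
    refine ContinuousLinearMap.ext fun v => ?_
    rw [PIFam.sum_mul_apply, zero_apply]
    refine (tsum_congr fun o => ?_).trans tsum_zero
    rw [(hfam false).mul_sum_zero fun o' => hfo true o false o' fun h => by simp at h, zero_apply]
  have hSd : ∀ b, S b * d = S b := fun b => by
    conv_lhs => arg 2; rw [← hSS b]
    exact (hfam b).sum_mul_star_self
  set fd := d - S true * star (S true) with hfd
  have hfdM : fd ∈ M := sub_mem hd.mem (mul_mem (hSM true) (star_mem (hSM true)))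
  have e1 : d * (S true * star (S true)) = S true * star (S true) := by
    rw [← mul_assoc]; simp only [hS]; rw [hdf]
  have e2 : S true * star (S true) * d = S true * star (S true) := by
    simpa [star_mul, hds] using congrArg star e1
  have e3 : S true * star (S true) * (S true * star (S true)) = S true * star (S true) := by
    rw [mul_assoc, ← mul_assoc (star (S true))]
    simp only [hS]
    rw [hSS, ← mul_assoc]
    exact congrArg (· * _) (hSd true)
  have hfdp : IsStarProjection fd := by
    refine ⟨?_, hd.proj.isSelfAdjoint.sub (IsSelfAdjoint.mul_star_self _)⟩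
    rw [IsIdempotentElem, hfd, sub_mul, mul_sub, mul_sub, hdd, e1, e2, e3, sub_self, sub_zero]
  obtain ⟨W, hWM, hW1, hW2⟩ := exists_onto hd.mem hd.proj hfdM hfdp
    (by rw [hfd, mul_sub, hdd, e1]) (hSM false) (hSS false) (hSd false)
    (by rw [hfd, sub_mul, hdf, mul_assoc, hcross, mul_zero, sub_zero])
  exact ⟨hd, S true, hSM true, W, hWM, hSS true, hW1, by rw [hW2, hfd, add_sub_cancel]⟩

/-- An isometry of a central `q` that is not onto gives a nonzero properly infinite summand. -/
theorem exists_isO2_below {q v : H →L[ℂ] H} (hq : IsCentralProj M q) (hv : v ∈ M)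
    (hvv : star v * v = q) (hne : v * star v ≠ q) : ∃ c, IsO2 M c ∧ q * c = c ∧ c ≠ 0 := by
  classical
  have hqq : q * q = q := hq.proj.isIdempotentElem.eq
  have hqs : star q = q := hq.proj.isSelfAdjoint.star_eq
  have hvq : v * q = v := by
    have h := pi_of_src hq.proj hvv
    rwa [hvv] at h
  have hqv : q * v = v := by rw [hq.comm v hv, hvq]
  set p := q - v * star v with hpdef
  have hvvi : v * star v * (v * star v) = v * star v := by
    rw [mul_assoc, ← mul_assoc (star v), hvv, ← mul_assoc, hvq]
  have hqvv : q * (v * star v) = v * star v := by rw [← mul_assoc, hqv]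
  have hpM : p ∈ M := sub_mem hq.mem (mul_mem hv (star_mem hv))
  have hpp : IsStarProjection p := by
    refine ⟨?_, hq.proj.isSelfAdjoint.sub (IsSelfAdjoint.mul_star_self v)⟩
    rw [IsIdempotentElem, hpdef, sub_mul, mul_sub, mul_sub, hqq, hqvv, hvvi,
      ← hq.comm _ (mul_mem hv (star_mem hv)), hqvv, sub_self, sub_zero]
  have hps : star p = p := hpp.isSelfAdjoint.star_eq
  have hp0 : p ≠ 0 := sub_ne_zero.2 (Ne.symm hne)
  have hqp : q * p = p := by rw [hpdef, mul_sub, hqq, hqvv]
  have hpv : p * v = 0 := by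
    rw [hpdef, sub_mul, hqv, mul_assoc, hvv, hvq, sub_self]
  have hshift : ∀ (n : ℕ) (x : H →L[ℂ] H), q * x = x → star (v ^ n) * (v ^ n * x) = x := by
    intro n
    induction n with
    | zero => intro x _; simp
    | succ n ih =>
      intro x hx
      have hx' : q * (v * x) = v * x := by rw [← mul_assoc, hqv]
      rw [pow_succ v n, star_mul, mul_assoc (star v), mul_assoc (v ^ n), ih _ hx', ← mul_assoc, hvv,
        hx]
  have hoff : ∀ m k, star (v ^ m * p) * (v ^ (m + (k + 1)) * p) = 0 := by
    intro m k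
    rw [pow_add, mul_assoc (v ^ m), star_mul, mul_assoc, hps, hshift m _ (by
      rw [pow_succ', mul_assoc v, ← mul_assoc q, hqv]), pow_succ', ← mul_assoc, ← mul_assoc,
      hpv, zero_mul, zero_mul]
  have hdiag : ∀ n, star (v ^ n * p) * (v ^ n * p) = p := fun n => by
    rw [star_mul, mul_assoc, hshift n p hqp, hps, hpp.isIdempotentElem.eq]
  set B₀ := Set.range fun n : ℕ => v ^ n * p with hB₀
  set S : Set (Set (H →L[ℂ] H)) :=
    {B | B₀ ⊆ B ∧ (∀ w ∈ B, w ∈ M ∧ star w * w = p ∧ q * w = w) ∧
      ∀ w ∈ B, ∀ w' ∈ B, w ≠ w' → star w * w' = 0} with hS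
  have hS0 : B₀ ∈ S := by
    refine ⟨subset_rfl, ?_, ?_⟩
    · rintro _ ⟨n, rfl⟩
      refine ⟨mul_mem (pow_mem hv n) hpM, hdiag n, ?_⟩
      show q * (v ^ n * p) = v ^ n * p
      rw [← mul_assoc, hq.comm _ (pow_mem hv n), mul_assoc, hqp]
    · rintro _ ⟨m, rfl⟩ _ ⟨n, rfl⟩ hne'
      rcases lt_trichotomy m n with h | h | h
      · obtain ⟨k, rfl⟩ := Nat.exists_eq_add_of_lt h
        exact hoff m k
      · exact absurd (by rw [h]) hne'
      · obtain ⟨k, rfl⟩ := Nat.exists_eq_add_of_lt h
        simpa [star_mul, mul_assoc, Nat.add_assoc] using congrArg star (hoff n k)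
  obtain ⟨B, hB0, ⟨hsub, hB1, hB2⟩, hmax⟩ := zorn_subset_nonempty S (fun c hc hchain hcne => by
    refine ⟨⋃₀ c, ⟨?_, ?_, ?_⟩, fun a ha => Set.subset_sUnion_of_mem ha⟩
    · obtain ⟨a, ha⟩ := hcne
      exact (hc ha).1.trans (Set.subset_sUnion_of_mem ha)
    · rintro w ⟨a, ha, hw⟩
      exact (hc ha).2.1 w hw
    · rintro w ⟨a, ha, hw⟩ w' ⟨b, hb, hw'⟩ hne'
      rcases hchain.total ha hb with h | h
      · exact (hc hb).2.2 w (h hw) w' hw' hne'
      · exact (hc ha).2.2 w hw w' (h hw') hne') B₀ hS0
  have hwpi : ∀ w : B, w.1 * (star w.1 * w.1) = w.1 := fun w => pi_of_src hpp (hB1 _ w.2).2.1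
  have hinj : Function.Injective fun n : ℕ => v ^ n * p := by
    intro m n hmn
    by_contra h
    rcases lt_or_gt_of_ne h with h | h
    · obtain ⟨k, rfl⟩ := Nat.exists_eq_add_of_lt h
      exact hp0 (by rw [← hdiag m]; conv_lhs => arg 2; rw [show v ^ m * p = _ from hmn]
                    exact hoff m k)
    · obtain ⟨k, rfl⟩ := Nat.exists_eq_add_of_lt h
      exact hp0 (by rw [← hdiag n]; conv_lhs => arg 2; rw [show v ^ n * p = _ from hmn.symm]
                    exact hoff n k)
  have : Infinite B :=
    Set.infinite_coe_iff.2 ((Set.infinite_range_of_injective hinj).mono hsub)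
  have hE : ∀ w : B, IsStarProjection (w.1 * star w.1) := fun w =>
    ⟨by rw [IsIdempotentElem, mul_assoc, ← mul_assoc (star w.1), ← mul_assoc, hwpi],
      IsSelfAdjoint.mul_star_self _⟩
  have hF := PIFam.of_proj hE fun w w' h => by
    rw [mul_assoc, ← mul_assoc (star w.1), hB2 _ w.2 _ w'.2 (fun e => h (Subtype.ext e)),
      zero_mul, mul_zero]
  set R := hF.sum with hR
  have hRp : IsStarProjection R := hF.sum_proj hE
  have hRM : R ∈ M := hF.sum_mem fun w => mul_mem (hB1 _ w.2).1 (star_mem (hB1 _ w.2).1)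
  have hqR : q * R = R := hF.mul_sum_eq fun w => by rw [← mul_assoc, (hB1 _ w.2).2.2]
  set r := q - R with hr
  have hrM : r ∈ M := sub_mem hq.mem hRM
  have hrp : IsStarProjection r := by
    refine ⟨?_, hq.proj.isSelfAdjoint.sub hRp.isSelfAdjoint⟩
    rw [IsIdempotentElem, hr, sub_mul, mul_sub, mul_sub, hqq, hqR, hRp.isIdempotentElem.eq,
      ← hq.comm R hRM, hqR, sub_self, sub_zero]
  have hqr : q * r = r := by rw [hr, mul_sub, hqq, hqR]
  have hwr : ∀ w : B, star w.1 * r = 0 := fun w => by
    have h1 : R * w.1 = w.1 := by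
      rw [hR, hF.sum_mul_single w fun w' h => by
        rw [mul_assoc, hB2 _ w'.2 _ w.2 (fun e => h (Subtype.ext e)), mul_zero],
        mul_assoc, hwpi]
    have h2 : r * w.1 = 0 := by rw [hr, sub_mul, (hB1 _ w.2).2.2, h1, sub_self]
    simpa [star_mul, hrp.isSelfAdjoint.star_eq] using congrArg star h2
  obtain ⟨c, hcM, hcp, hcc, ⟨U, hUM, hU, hpU, hcU⟩, hzero⟩ := exists_compare hrM hpM hrp hpp
  have hcp0 : c * p ≠ 0 := fun h0 => by
    obtain ⟨V, hVM, hV, hrV⟩ := hzero h0
    have hVo : ∀ w : B, star w.1 * V = 0 := fun w => by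
      rw [← hrV, ← mul_assoc, hwr, zero_mul]
    have hin : insert V B ∈ S := by
      refine ⟨hsub.trans (Set.subset_insert _ _), ?_, ?_⟩
      · rintro w (rfl | hw)
        · exact ⟨hVM, hV, by rw [← hrV, ← mul_assoc, hqr]⟩
        · exact hB1 w hw
      · rintro w (rfl | hw) w' (rfl | hw') hne'
        · exact absurd rfl hne'
        · simpa [star_mul] using congrArg star (hVo ⟨w', hw'⟩)
        · exact hVo ⟨w, hw⟩
        · exact hB2 w hw w' hw' hne'
    have hVB : V ∈ B := hmax hin (Set.subset_insert V B) (Set.mem_insert V B)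
    exact hp0 (hV.symm.trans (hVo ⟨V, hVB⟩))
  have hc : IsCentralProj M c := ⟨hcM, hcp, hcc⟩
  have hqU : q * U = U := by rw [← hpU, ← mul_assoc, hqp]
  refine ⟨c * q, exists_pair_of_copies (hc.mul hq) hpM hrM hrp B
    (fun w hw => ⟨(hB1 w hw).1, (hB1 w hw).2.1, hwpi ⟨w, hw⟩⟩) hB2 (fun v => ?_)
    (fun w hw => hwr ⟨w, hw⟩) hUM (by rw [hU, mul_assoc, hqr]) hpU
    (by rw [mul_assoc, hqU, hcU]), by rw [← mul_assoc, ← hcc q hq.mem, mul_assoc, hqq], ?_⟩
  · rw [← hF.mul_sum_apply, ← add_apply, ← mul_add, mul_assoc, hr, add_sub_cancel, hqq]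
  · intro h0
    exact hcp0 (by rw [← hqp, ← mul_assoc, h0, zero_mul])

end Vale.Agent.P082.Every.C1
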